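import Vale.Agent.P248.Equality.Stability

/-!
# P248: the general Mahler conjecture in dimension three, with its equality case
-/

open MeasureTheory Set

namespace Vale.Agent.Results.P248.GeneralDimThree

open Vale.Agent.P248

theorem result : ∀ K : Set (Fin 3 → ℝ), IsCompact K → Convex ℝ K → (interior K).Nonempty →
    (∀ z ∈ interior K, ((3 : ℝ) + 1) ^ (3 + 1) / (Nat.factorial 3 : ℝ) ^ 2 ≤
      volume.real K * volume.real {y : Fin 3 → ℝ | ∀ x ∈ K, ∑ i, (x i - z i) * y i ≤ 1}) ∧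
    ((⨅ z : interior K, volume.real K *
        volume.real {y : Fin 3 → ℝ | ∀ x ∈ K, ∑ i, (x i - z.1 i) * y i ≤ 1}) =
          ((3 : ℝ) + 1) ^ (3 + 1) / (Nat.factorial 3 : ℝ) ^ 2 ↔
      ∃ v : Fin 4 → (Fin 3 → ℝ), K = convexHull ℝ (range v)) := by
  intro K hc hv hi
  have e : ((3 : ℝ) + 1) ^ (3 + 1) / (Nat.factorial 3 : ℝ) ^ 2 = 64 / 9 := by
    norm_num [Nat.factorial]
  rw [e]
  refine ⟨fun z hz => ?_, Three.mahler_three_iff hc hv hi⟩
  have := Three.mahler_three hc hv hz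
  norm_num at this
  exact this

end Vale.Agent.Results.P248.GeneralDimThree
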