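import Vale.Agent.P248.General

/-!
# P248: the general Mahler inequality for bodies with all but few commuting reflections
-/

open MeasureTheory Set
open scoped Nat

namespace Vale.Agent.Results.P248.ManyReflections

open Vale.Agent.P248

theorem result :
    (∀ (n : ℕ) (K : Set (Fin n → ℝ)) (T : (Fin n → ℝ) ≃ₗ[ℝ] (Fin n → ℝ)) (b : Fin n → ℝ)
      (J : Finset (Fin n)), IsCompact K → Convex ℝ K →
      (∀ i ∈ J, ∀ y ∈ (fun x => T (x - b)) '' K,
        Function.update y i (-y i) ∈ (fun x => T (x - b)) '' K) →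
      ∀ z ∈ interior K,
        (4 : ℝ) ^ J.card * J.card ! / (n ! : ℝ) ^ 2 ≤
          volume.real K * volume.real {y : Fin n → ℝ | ∀ x ∈ K, ∑ i, (x i - z i) * y i ≤ 1}) ∧
    (∀ m : ℕ, ∃ N : ℕ, ∀ n : ℕ, N ≤ n →
      ∀ (K : Set (Fin n → ℝ)) (T : (Fin n → ℝ) ≃ₗ[ℝ] (Fin n → ℝ)) (b : Fin n → ℝ)
        (J : Finset (Fin n)), n ≤ J.card + m → IsCompact K → Convex ℝ K →
        (∀ i ∈ J, ∀ y ∈ (fun x => T (x - b)) '' K,
          Function.update y i (-y i) ∈ (fun x => T (x - b)) '' K) →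
        ∃ P₀ : ℝ, ((n : ℝ) + 1) ^ (n + 1) / (n ! : ℝ) ^ 2 < P₀ ∧
          ∀ z ∈ interior K,
            P₀ ≤ volume.real K * volume.real {y : Fin n → ℝ | ∀ x ∈ K, ∑ i, (x i - z i) * y i ≤ 1}) := by
  have main : ∀ (n : ℕ) (K : Set (Fin n → ℝ)) (T : (Fin n → ℝ) ≃ₗ[ℝ] (Fin n → ℝ)) (b : Fin n → ℝ)
      (J : Finset (Fin n)), IsCompact K → Convex ℝ K →
      (∀ i ∈ J, ∀ y ∈ (fun x => T (x - b)) '' K,
        Function.update y i (-y i) ∈ (fun x => T (x - b)) '' K) →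
      ∀ z ∈ interior K,
        (4 : ℝ) ^ J.card * J.card ! / (n ! : ℝ) ^ 2 ≤
          volume.real K * volume.real {y : Fin n → ℝ | ∀ x ∈ K, ∑ i, (x i - z i) * y i ≤ 1} := by
    intro n K T b J hc hconv hJ z hz
    have h := affine_flip_bound hc hconv T b (J := J) hJ hz
    have e : polar ((fun x => x - z) '' K) = {y : Fin n → ℝ | ∀ x ∈ K, ∑ i, (x i - z i) * y i ≤ 1} := by
      ext y; simp [polar]
    rw [e] at h
    rw [div_le_iff₀ (by positivity)]
    linarith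
  refine ⟨main, fun m => ?_⟩
  obtain ⟨N, hN⟩ := eventually_simplex_lt m
  refine ⟨N, fun n hn K T b J hk hc hconv hJ =>
    ⟨(4 : ℝ) ^ J.card * J.card ! / (n ! : ℝ) ^ 2, ?_, main n K T b J hc hconv hJ⟩⟩
  refine div_lt_div_of_pos_right ((hN n hn).trans_le ?_) (by positivity)
  exact mul_le_mul (pow_le_pow_right₀ (by norm_num) (by omega))
    (by exact_mod_cast Nat.factorial_le (by omega : n - m ≤ J.card)) (by positivity) (by positivity)

end Vale.Agent.Results.P248.ManyReflections
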