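import Vale.Agent.P248.Turn

/-!
# P248: symmetric Mahler inequality in all dimensions for equipartitioned and quarter-turn bodies
-/

open MeasureTheory Set
open scoped Nat

namespace Vale.Agent.Results.P248.SectionEquipartition

open Vale.Agent.P248

theorem result (n : ℕ) (K : Set (Fin n → ℝ)) (hcpt : IsCompact K) (hconv : Convex ℝ K)
    (hint : (0 : Fin n → ℝ) ∈ interior K) (T : (Fin n → ℝ) ≃ₗ[ℝ] (Fin n → ℝ)) :
    (∀ c : ℝ, 0 ≤ c → Crit c (T '' K) →
      (4 : ℝ) ^ n / n ! ≤ c ^ n * (volume.real K * volume.real (polar K))) ∧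
    (Equi (T '' K) → (4 : ℝ) ^ n / n ! ≤ volume.real K * volume.real (polar K)) ∧
    (∀ p : Fin n → Fin n, TurnInv p (T '' K) →
      (4 : ℝ) ^ n / n ! ≤ volume.real K * volume.real (polar K)) := by
  have hK : Good (T '' K) := Good.image ⟨hcpt, hconv, hint⟩ T
  have hC : ∀ c : ℝ, 0 ≤ c → Crit c (T '' K) →
      (4 : ℝ) ^ n / n ! ≤ c ^ n * (volume.real K * volume.real (polar K)) := fun c hc h => by
    rw [← vol_prod_image (K := K) T]
    exact mahler_of_crit hc n _ hK h
  have hE : Equi (T '' K) → (4 : ℝ) ^ n / n ! ≤ volume.real K * volume.real (polar K) := fun h => by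
    simpa using hC 1 zero_le_one (crit_of_equi hK h)
  exact ⟨hC, hE, fun p h => hE (equi_of_turnInv hK h)⟩

end Vale.Agent.Results.P248.SectionEquipartition
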